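import Vale.Agent.P352R.Lg.Pub
import Vale.Agent.P352R.Le.Pub
import Vale.Agent.P352R.Cf.Pub

namespace Vale.Agent.P352R.GI

open P352.GF P G
open UniformSpace (Completion)

variable {D : Type*} [NormedAddCommGroup D] [InnerProductSpace ℂ D]

/-- The hypotheses on the theory `Q`, the grading `G`, the stress tensor `T`, the generators `A X`
of the similitudes, the grading `Γ` on the Hilbert space and the von Neumann algebra `M` of the
region `O`. -/
structure Hyp (Q : Theory D) (G : D → D) (T : Ix → Ix → Fld D) (A : (V → V) → D → D)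
    (Γ : Completion D →L[ℂ] Completion D) (O : Set V) (M : VonNeumannAlgebra (Completion D)) :
    Prop where
  stress : Stress0 Q T
  charges : PCh Q T A
  fields : CntF Q ∨ MfA Q ∧ FSL Q
  net : Lg1 Q G A Γ O M
  vac : UVac Q
  bounds : EBd Q

/-- Conformal invariance of the graded theory `Q` with the stress tensor `S`, improved by `L`. -/
structure Cf (Q : Theory D) (G : D → D) (S : Ix → Ix → Fld D) (L : Fld D) : Prop where
  stress : Q.IsStress S
  scalar : Q.IsScalar L 2
  trace : ∀ f v, IsTest f → tr S f v = (3 : ℂ) • L (box f) v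
  conf : ∀ R : Theory D, IsEnl Q R → IsImpr R S (improve S L) ∧ ConfAct R (improve S L) ∧
    (Gr R G → CFS R G (improve S L) ∧
      ∀ B, Q.fld B → ∃ (n : ℕ) (p : Fin n → Bool) (C : Fin n → Fld D),
        (∀ i, DescS R G (improve S L) (p i) (C i)) ∧ ∀ f v, IsTest f → B f v = ∑ i, C i f v)

/-- The theory `Q` is graded by `G`, its vacuum is even, and `A X` is the generator of the
similitudes with velocity field `X`. -/
structure Ge (Q : Theory D) (G : D → D) (A : (V → V) → D → D) : Prop extends Gr Q G where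
  vac : G Q.vac = Q.vac
  add : ∀ r r' (c : ℝ) X X' v, IsSim r X → IsSim r' X' →
    A (fun z => X z + c • X' z) v = A X v + (c : ℂ) • A X' v
  der : Gnr Q A

/-- The domain is generated from the vacuum by the smeared fields. -/
def Cy (Q : Theory D) : Prop := ∀ S : Submodule ℂ D, Q.vac ∈ S →
  (∀ B f v, Q.fld B → IsTest f → v ∈ S → B f v ∈ S) → S = ⊤

/-- The vacuum is an analytic vector for the hermitian parts of the smeared fields. -/
def Ana (Q : Theory D) : Prop := ∀ B B' f, Q.fld B → IsAdj B B' → In Set.univ f → ∃ C : ℝ, ∀ n : ℕ,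
  ‖(fun w => B f w + B' (bar f) w)^[n] Q.vac‖ ≤ C ^ (n + 1) * n.factorial

variable (D) in
/-- The hypotheses imply the conclusion, for all theories with domain `D`; every graded local net
gives an algebra as in the hypotheses, and contains its transforms; a subtheory with linear energy
bounds, or with an analytic vacuum, has a graded local net and gives the algebra, so that no von
Neumann algebra is assumed; the
generators exist on the domain that the fields generate. -/
structure Thm : Prop where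
  h : ∀ (Q : Theory D) G T A Γ O M, Hyp Q G T A Γ O M → NoLog Q T ∧ ∃ T', Q.IsStress T' ∧
    PCh Q T' A ∧ ∃ (D' : Submodule ℂ (Completion D)) (Q' : Theory D') (G' : D' → D')
      (e : Fld D → Fld D') (L : Fld D'),
      ExtG Q Γ Q' G' e ∧ AfT (Trf Q O M) Q' (↑) ∧ Cf Q' G' (fun m n => e (T' m n)) L
  net : ∀ (Q : Theory D) G A Γ N O, LNg Q G A Γ N → O ∈ nhds 0 → Bornology.IsBounded O →
    Lg1 Q G A Γ O (N O) ∧ ∀ S, ∀ X ∈ Trf Q O (N O) S, X ∈ N S
  ebd : ∀ Q : Theory D, LEB Q → EBd Q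
  form : ∀ (Q : Theory D) A, Gnr Q A → (∀ B, Q.fld B → ∃ k, ∀ f, In Set.univ f → ∃ C : ℝ, ∀ u v,
    ‖inner ℂ u (B f v)‖ ≤ C * en Q k u * en Q k v) → EBd Q
  sub : ∀ (Q R : Theory D) G A, Ge Q G A → IsEnl R Q → Gr R G → (CntF R ∨ MfA R ∧ FSL R) →
    (EBd Q ∧ LEB R ∨ Cy Q ∧ Ana R) → ∃ Γ N, LNg R G A Γ N ∧
      ∀ O ∈ nhds 0, Bornology.IsBounded O → ∃ M, Lg1 Q G A Γ O M ∧ ∀ T, Stress0 Q T → PCh Q T A →
        (CntF Q ∨ MfA Q ∧ FSL Q) → UVac Q → EBd Q → Hyp Q G T A Γ O M
  gen : ∀ (Q : Theory D) G, Gr Q G → G Q.vac = Q.vac → Cy Q → MfA Q → FSL Q → ∃ A, Ge Q G A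

variable (D) in
/-- There is a nontrivial theory `Q` with domain `D` that satisfies the hypotheses, with a linearly
bounded subtheory `R` that is `Q` itself, or whose fields are the multiples of one scalar field and
have an analytic vacuum. -/
inductive Wit (b : Bool) : Prop
  | mk (Q R : Theory D) (G T A Γ O M φ)
    (h : Hyp Q G T A Γ O M ∧ CntF Q ∧ MfA Q ∧ FSL Q ∧ IsEnl R Q ∧ Gr R G ∧ CntF R ∧ LEB R ∧
      cond b (R = Q) (Ana R ∧ ∀ B, R.fld B ↔ ∃ c : ℂ, ∀ f v, B f v = c • φ f v) ∧ Cy Q ∧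
      Q.IsScalar φ 1 ∧
      (∃ f, IsTest f ∧ φ f Q.vac ≠ 0) ∧ ¬FiniteDimensional ℂ (Completion D) ∧
      ∃ f, IsTest f ∧ tr T f Q.vac ≠ 0) : Wit b

end Vale.Agent.P352R.GI
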