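import Vale.Agent.P352R.Gz.Pub
import Vale.Agent.P352R.Tg.Top
import Vale.Agent.P352R.Bz.Nel
import Vale.Agent.P352R.Bz.Core
import Vale.Agent.P352R.Bz.Ana
import Vale.Agent.P352.H496.LFam

/-!
# P352R, block Gz: an analytic vacuum gives a graded local algebra (helper72)
-/

set_option autoImplicit false
set_option linter.all false

noncomputable section

namespace Vale.Agent.P352R.Gz

open P352 GF P352R.P P352R.G P352W.Net P352X.EG.Wb Le L22 Bz
open UniformSpace (Completion)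
open Complex (I)
open scoped InnerProductSpace Nat

variable {D : Type*} [NormedAddCommGroup D] [InnerProductSpace ℂ D] {Q R : Theory D} {G : D → D}
  {A : (V → V) → D → D} {Γ : Completion D →L[ℂ] Completion D} {S O : Set V} {P P' : D → D}
  {B B' : Fld D} {f : Fn} {X : Module.End ℂ D}

/-- the hermitian parts of the homogeneous fields -/
def Cl (R : Theory D) (G : D → D) (S : Set V) (X : Module.End ℂ D) : Prop := ∃ B B' f,
  (R.bose B ∨ Fer R G B) ∧ R.fld B' ∧ P352R.P.IsAdj B B' ∧ In S f ∧ ∀ v, X v = B f v + B' (bar f) v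

theorem Cl.tg (x : Cl R G S X) : Tg.Cl R S X :=
  have ⟨B, B', f, a, b, c, d, e⟩ := x
  ⟨B, B', f, 1, a.elim (R.bose_fld _) And.left, b, c, d, fun v => by rw [e, star_one, one_smul, one_smul]⟩

theorem st0 : ∀ g ∈ RR (Cl R G S), star g ∈ RR (Cl R G S) := rr_star fun _ a => a.tg.sy

structure Hy (Q R : Theory D) (G : D → D) : Prop where
  g : Gr Q G
  g' : Gr R G
  sub : IsEnl R Q
  vac : G Q.vac = Q.vac
  cy : ∀ S : Submodule ℂ D, Q.vac ∈ S → (∀ B f v, Q.fld B → IsTest f → v ∈ S → B f v ∈ S) → S = ⊤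
  an : P352R.G.Ana R

theorem cmA (a : Ad P P') (c : ∀ B g v, Q.fld B → In S g → P (B g v) = B g (P v)) (B g v)
    (hB : Q.fld B) (hg : In S g) : P' (B g v) = B g (P' v) := ext_inner_left ℂ fun w => by
  obtain ⟨C, hC, b⟩ := fad hB
  have b := b g hg.1
  rw [← a, ← b.symm, ← c C _ w hC (in_bar hg), a, b.symm]

theorem nrm {Y E : Module.End ℂ D} {c : ℂ} (hc : ‖c‖ = 1) (e : ∀ v, Y (E v) = c • E (Y v))
    (n : ∀ v, ‖E v‖ = ‖v‖) (k : ℕ) (v : D) : ‖(Y ^ k) (E v)‖ = ‖(Y ^ k) v‖ := by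
  induction k generalizing v with
  | zero => exact n v
  | succ k ih =>
    rw [pow_succ, Module.End.mul_apply, Module.End.mul_apply, e, map_smul, norm_smul, hc, one_mul, ih]

theorem av (h : Hy Q R G) (x : Cl R G S X) : ∃ g, In S g ∧ ∃ t : ℝ, 0 < t ∧
    (∀ u, P352.PW Q (H246.MW (cc (tsupport g))) u → u ∈ AV ((t : ℂ) • X)) ∧
      ∀ u ∈ AV ((t : ℂ) • X), G u ∈ AV ((t : ℂ) • X) := by
  have sy := x.tg.sy
  obtain ⟨E, E', g, a, a', ae, hg, e⟩ := x
  have ad : Ad (E g) (E' (bar g)) := fun v w => ae g v w hg.1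
  obtain ⟨C, b⟩ := h.an E E' g (a.elim (R.bose_fld _) And.left) ae (P352X.Ap.in_univ' hg)
  have b : ∀ n : ℕ, ‖(X ^ n) Q.vac‖ ≤ C ^ (n + 1) * n ! := fun n => by
    rw [Module.End.pow_apply, show ⇑X = _ from funext e, h.sub.vac]
    exact b n
  have sp : ∀ f, In (cc (tsupport g)) f → Sep g f := fun f hf x hx y hy => hf.2.2 hy x hx
  let L : Module.End ℂ D := Ad.L h.g.herm
  have gv : ∀ (c : ℂ) (t : ℝ), ‖c‖ = 1 → (∀ v, X (G v) = c • G (X v)) →
      ∀ u ∈ AV ((t : ℂ) • X), G u ∈ AV ((t : ℂ) • X) := fun c t hc k u hu m => by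
    have := fun n => nrm (Y := (t : ℂ) • X) (E := L) hc (fun v => by
      show (t : ℂ) • X (G v) = c • L ((t : ℂ) • X v)
      rw [k, map_smul, smul_comm]; rfl) (Tg.nG h.g) n u
    simp only [show G u = L u from rfl, this]
    exact hu m
  refine ⟨g, hg, ?_⟩
  rcases a with a | a
  · have c : ∀ B f v, Q.fld B → In (cc (tsupport g)) f → E g (B f v) = B f (E g v) :=
      fun B f v hB hf => Q.loc E B g f v (h.sub.bose _ a) hB hg.1 hf.1 (sp f hf)
    obtain ⟨t, ht, k⟩ := ana (Q := Q) (W := cc (tsupport g)) sy (fun B f v hB hf => by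
      obtain ⟨B', -, p⟩ := fad hB
      rw [e, e, c B f v hB hf, cmA ad c B f v hB hf]
      exact ((p f hf.1).L.map_add _ _).symm) C b
    refine ⟨t, ht, k, gv 1 t norm_one fun v => ext_inner_left ℂ fun w => ?_⟩
    rw [one_smul, ← h.g.herm, e, e, inner_add_right, inner_add_right, h.g'.bose E g v a hg.1,
      ← h.g.herm, ← ad, ← ad, ← h.g.herm, h.g'.bose E g w a hg.1]
  · have q : ∀ v, X (G v) = (-1 : ℂ) • G (X v) := fun v => ext_inner_left ℂ fun w => by
      rw [neg_one_smul, inner_neg_right, ← h.g.herm, e, e, inner_add_right, inner_add_right,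
        a.2 g v hg.1, inner_neg_right, ← h.g.herm, ← ad, ← ad, ← h.g.herm, a.2 g w hg.1,
        inner_neg_left]
      ring
    have c : ∀ B f v, Q.fld B → In (cc (tsupport g)) f → E g (G (B f v)) = B f (E g (G v)) :=
      fun B f v hB hf => (Tg.cmF h.g ⟨h.sub.fld _ a.1, a.2⟩ hB hg.1 hf.1 (sp f hf) v).symm
    have ad' : Ad (fun v => E g (G v)) fun v => G (E' (bar g) v) := fun v w => by rw [ad, h.g.herm]
    have c' := cmA ad' c
    have q' : ∀ v, E' (bar g) (G v) = -G (E' (bar g) v) := fun v => ext_inner_left ℂ fun w => by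
      rw [inner_neg_right, ← h.g.herm, ← ad, ← ad, ← h.g.herm, a.2 g w hg.1, inner_neg_left, neg_neg]
    have nn : ∀ (t : ℝ) (n : ℕ) v, ‖(((t : ℂ) • (I • (X * L))) ^ n) v‖ = ‖(((t : ℂ) • X) ^ n) v‖ := by
      intro t n
      induction n with
      | zero => exact fun _ => rfl
      | succ n ih =>
        intro v
        rw [pow_succ, pow_succ, Module.End.mul_apply, Module.End.mul_apply, ih]
        have : ((t : ℂ) • (I • (X * L))) v = (-I) • L (((t : ℂ) • X) v) := by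
          show (t : ℂ) • I • X (G v) = (-I) • L ((t : ℂ) • X v)
          rw [q, map_smul, show L (X v) = G (X v) from rfl]
          module
        rw [this, map_smul, norm_smul, norm_neg, Complex.norm_I, one_mul]
        exact nrm (c := -1) (by simp) (fun v => by
          show (t : ℂ) • X (G v) = (-1 : ℂ) • L ((t : ℂ) • X v)
          rw [q, map_smul, smul_comm]; rfl) (Tg.nG h.g) n _
    obtain ⟨t, ht, k⟩ := ana (Q := Q) (W := cc (tsupport g)) (X := I • (X * L)) (fun v w => by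
      show inner ℂ (I • X (G v)) w = inner ℂ v (I • X (G w))
      rw [inner_smul_left, inner_smul_right, sy, h.g.herm, q, inner_smul_right, Complex.conj_I]
      ring) (fun B f v hB hf => by
      obtain ⟨B', -, p⟩ := fad hB
      show I • X (G _) = (p f hf.1).L (I • X (G v))
      rw [e, e, q', q', c B f v hB hf, map_smul, map_add, map_neg]
      exact congrArg (fun z => I • (_ + -z)) (c' B f v hB hf)) C fun n => by
      have := nn 1 n Q.vac
      rw [Complex.ofReal_one, one_smul, one_smul] at this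
      exact this ▸ b n
    exact ⟨t, ht, fun u hu m => by simpa only [nn] using k u hu m, gv (-1) t (by simp) q⟩

theorem co (h : Hy Q R G) (x : Cl R G S X) : Co X 1 ∧ ∀ B f P', Q.fld B → In Set.univ f →
    (∀ g, In S g → Sep g f) → (∀ a : Ad (B f) P', Co X a.L) ∧
      ∀ a : Ad (fun v => B f (G v)) P', Co X a.L := by
  obtain ⟨g, hg, t, ht, k, k'⟩ := av h x
  obtain ⟨S0, big, sub, -⟩ := H496.exists_big (ι := Empty) hg.2.1.isCompact (fun i => i.elim)
    fun i => i.elim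
  have big : H246.Big (H246.MW (cc (tsupport g))) := fun r => (big r).imp fun _ b x hx => sub (b x hx)
  refine ⟨⟨t, ht, fun v ε p => ?_⟩, fun B f P' hB hf sp => ?_⟩
  · obtain ⟨u, hu, d⟩ := Metric.mem_closure_iff.1 (H246.dense_big (Q := Q) big v) ε p
    rw [dist_eq_norm] at d
    exact ⟨u, k u hu, k u hu, d, d⟩
  have z : ∀ v (ε : ℝ), 0 < ε → ∃ u, u ∈ AV ((t : ℂ) • X) ∧ B f u ∈ AV ((t : ℂ) • X) ∧
      ‖v - u‖ < ε ∧ ‖B f v - B f u‖ < ε := fun v ε p => by
    obtain ⟨u, hu, d⟩ := core (fun S a b w => (h.cy S a b).ge Submodule.mem_top) big hB hf v p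
    obtain ⟨F, rfl⟩ := P352.exists_fl hf.1
    exact ⟨u, k u hu, k _ (.fld hB (H246.In_fl.1 ⟨hf.1, hf.2.1, fun y hy x hx =>
      sp g hg x hx y hy⟩) hu), d⟩
  refine ⟨fun a => ⟨t, ht, z⟩, fun a => ⟨t, ht, fun v ε p => ?_⟩⟩
  obtain ⟨u, a1, a2, a3, a4⟩ := z (G v) ε p
  refine ⟨G u, k' u a1, ?_, ?_, ?_⟩
  · show B f (G (G u)) ∈ _
    rwa [h.g.inv]
  · rwa [← Tg.nG h.g, show G (v - G u) = G v - G (G u) from (Ad.L h.g.herm).map_sub _ _, h.g.inv]
  · show ‖B f (G v) - B f (G (G u))‖ < ε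
    rwa [h.g.inv]

theorem ws_iff (h : Hy Q R G) {Z : Completion D →L[ℂ] Completion D} :
    Z ∈ WS R S ↔ Z ∈ cmt (RR (Cl R G S)) := by
  rw [mem_cmt st0]
  refine ⟨fun hZ g ⟨X, l, x, r⟩ => r.cm x.tg.sy fun v w => ?_, fun hZ B f P' hB hf q v w => ?_⟩
  · obtain ⟨B, B', f, a, -, ad, hf, e⟩ := x
    have k := ws2 hZ (a.elim (R.bose_fld _) And.left) hf fun v w => ad f v w hf.1
    simp only [e, Completion.coe_add, map_add, inner_add_left, inner_add_right]
    exact (congrArg₂ (· + ·) (k.2 v w) (k.1 v w)).trans (add_comm _ _)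
  have hm : ∀ B B', (R.bose B ∨ Fer R G B) → R.fld B' → P352R.P.IsAdj B B' →
      Wc ι (B f) (B' (bar f)) Z := fun B B' a hB' ad v w => by
    have hB := a.elim (R.bose_fld _) And.left
    have k (z : ℂ) : Wk (Tg.hp ad hf.1 z) Z := by
      have x : Cl R G S (Tg.hp ad hf.1 z) := ⟨B, B', fun x => z * f x, a, hB', ad,
        P352X.Ap.in_cmul z hf, fun v => by
          rw [fld_sm hB hf.1, show (bar fun x => z * f x) = fun x => star z * bar f x from
            funext fun x => star_mul' _ _, fld_sm hB' (P352X.Ap.test_bar hf.1)]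
          rfl⟩
      obtain ⟨T, t⟩ := ex_res' x.tg.sy (co h x).1
      exact t.wk x.tg.sy (hZ T ⟨_, _, x, t⟩)
    have e (z : ℂ) (v : D) : Tg.hp ad hf.1 z v = z • B f v + star z • B' (bar f) v := rfl
    have k1 := k 1 v w
    have k2 := k I v w
    simp only [e, Completion.coe_add, Completion.coe_smul, map_add, map_smul, inner_add_left,
      inner_add_right, inner_smul_left, inner_smul_right, RCLike.star_def, map_one, Complex.conj_I,
      map_neg, one_mul] at k1 k2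
    show ⟪((B' (bar f) w : D) : Completion D), Z v⟫_ℂ = ⟪(w : Completion D), Z (B f v : D)⟫_ℂ
    linear_combination (1 / 2 : ℂ) * k1 - (I / 2) * k2 + (1 / 2 : ℂ) *
      (inner ℂ ((B' (bar f) w : D) : Completion D) (Z v) -
        inner ℂ (w : Completion D) (Z (B f v : D)) - inner ℂ ((B f w : D) : Completion D) (Z v) +
        inner ℂ (w : Completion D) (Z (B' (bar f) v : D))) * Complex.I_mul_I
  obtain ⟨C, C', c, c', sp⟩ := h.g'.split B hB
  obtain ⟨E, hE, a1⟩ := R.adj C (R.bose_fld _ c)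
  obtain ⟨E', hE', a2⟩ := R.adj C' c'.1
  have e' : P' w = E (bar f) w + E' (bar f) w := ext_inner_left ℂ fun v => by
    rw [← q, sp f v hf.1, inner_add_left, inner_add_right, a1 f _ _ hf.1, a2 f _ _ hf.1]
  rw [e', sp f v hf.1, map_add, map_add, map_add, inner_add_left, inner_add_right,
    hm C E (.inl c) hE a1 v w, hm C' E' (.inr c') hE' a2 v w]

theorem af (h : Hy Q R G) (a : Ad P P') (k : ∀ X, Cl R G S X → Co X a.L)
    (c : ∀ B f v, R.fld B → In S f → B f (P v) = P (B f v)) : ∀ Y ∈ N R S, Wc ι P P' Y :=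
  fun Y hY => aff' (C := a.L) (S := Cl R G S) (fun X x => ⟨x.tg.sy, (co h x).1, k X x⟩) a
    (fun Z x => x.tg.cm (C := a.L) c)
    (mem_vn.2 fun Z hZ => (mem_cmt ws_star).1 hY Z ((ws_iff h).2 hZ))

theorem af2 (h : Hy Q R G) (ex : ∀ v : D, Γ v = (G v : D))
    {Y Z : Completion D →L[ℂ] Completion D} (m1 : Y ∈ N R S) (m2 : Z ∈ N R S)
    (he : Γ * Y = Y * Γ) (hk : Γ * Z = -(Z * Γ)) (hB : Q.fld B) (hf : In Set.univ f)
    (s' : ∀ g, In S g → Sep g f) (ad : Ad (B f) P') :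
    Wc ι (B f) P' Y ∧ Wc ι (B f) P' (Z * Γ) := by
  have g := h.g
  have gg : ∀ x, Γ * (Γ * x) = x := fun x => by rw [← mul_assoc, Lg.g2 g ex, one_mul]
  have ex' : ∀ v, ι (G v) = Γ (ι v) := fun v => (ex v).symm
  obtain ⟨C, C', c, c', sp⟩ := g.split B hB
  obtain ⟨E, hE, a1⟩ := fad (Q.bose_fld _ c)
  obtain ⟨E', hE', a2⟩ := fad c'.1
  have a1 := a1 f hf.1
  have a2 := a2 f hf.1
  have e' : ∀ w, P' w = E (bar f) w + E' (bar f) w := fun w => ext_inner_left ℂ fun v => by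
    rw [← ad, sp f v hf.1, inner_add_left, inner_add_right, a1, a2]
  have s : ∀ k, In S k → Sep f k := fun k hk => P352X.Ap.sep_symm (s' k hk)
  have k1 := af (S := S) h a1 (fun X x => ((co h x).2 C f _ (Q.bose_fld _ c) hf s').1 a1)
    fun B' k v hB' hh => (Q.loc C B' f k v c (h.sub.fld _ hB') hf.1 hh.1 (s k hh)).symm
  have k2 := af (S := S) (P := fun v => C' f (G v)) (P' := fun v => G (E' (bar f) v)) h
    (fun v w => by rw [a2, g.herm]) (fun X x => ((co h x).2 C' f _ c'.1 hf s').2 _)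
    fun B' k v hB' hh => Tg.cmF g c' (h.sub.fld _ hB') hf.1 hh.1 (s k hh) v
  refine ⟨fun v w => ?_, fun v w => ?_⟩
  · have q := k2 Y m1 (G v) w
    simp only [g.inv] at q
    rw [ex', ex', ← sg g ex, ← ContinuousLinearMap.mul_apply Y, ← he,
      ← ContinuousLinearMap.mul_apply, gg] at q
    rw [e', sp f v hf.1, map_add, map_add, map_add, inner_add_left, inner_add_right,
      k1 Y m1 v w, q]
  · have q := k2 Z m2 v w
    have q' := k1 Z m2 (G v) w
    simp only [c'.2 f v hf.1] at q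
    rw [ex', ← sg g ex, ← ContinuousLinearMap.mul_apply, hk, map_neg, map_neg, ex',
      ContinuousLinearMap.neg_apply, inner_neg_right, inner_neg_right, neg_inj] at q
    rw [g.bose C f v c hf.1, ex', ex'] at q'
    rw [e', sp f v hf.1, map_add, map_add, map_add, inner_add_left, inner_add_right, q]
    exact congrArg (· + _) q'

/-- **an analytic vacuum gives a graded local net and a graded local algebra** -/
theorem sub (h : Hy Q R G)
    (add : ∀ r r' (c : ℝ) X X' v, IsSim r X → IsSim r' X' →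
      A (fun z => X z + c • X' z) v = A X v + (c : ℂ) • A X' v) (der : Gnr Q A)
    (c : CntF R ∨ MfA R ∧ FSL R) :
    ∃ Γ N, LNg R G A Γ N ∧ ∀ O ∈ nhds 0, Bornology.IsBounded O → ∃ M, Lg1 Q G A Γ O M := by
  have g := h.g
  have g' := h.g'
  have der' : Gnr R A := by unfold Gnr at *; rw [← h.sub.U]; exact der
  obtain ⟨Γ, ex⟩ := Le.ex (ι ∘ₗ Ad.L g.herm) ι (fun _ => rfl) Completion.denseRange_coe
    ⟨1, fun v => by
      rw [one_mul, LinearMap.comp_apply, ni, ni]
      exact (Tg.nG g v).le⟩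
  have g2 := Lg.g2 g ex
  have s := Tg.gs g ex
  have cm : ∀ S, ∀ Y ∈ WS R S, Y ∈ (N R S).commutant := fun S Y hY =>
    VonNeumannAlgebra.mem_commutant_iff.2 fun X hX => ((mem_cmt ws_star).1 hX Y hY).symm
  have n : LNg R G A Γ (N R) := ⟨g', h.sub.vac ▸ h.vac, add, der', ex, fun S B f hB hf => by
      obtain ⟨B', -, ad⟩ := fad hB
      refine ⟨_, ad f hf.1, fun Y hY => (ws_iff h).2 ?_ B f _ hB hf (ad f hf.1)⟩
      rw [← vn_comm]
      exact VonNeumannAlgebra.mem_commutant_iff.2 fun X hX =>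
        VonNeumannAlgebra.mem_commutant_iff.1 hY X ((mem_cmt ws_star).2 fun Z hZ =>
          mem_vn.1 hX Z ((ws_iff h).1 hZ)),
    fun S S' k X hX => (mem_cmt ws_star).2 fun Y hY => (mem_cmt ws_star).1 hX Y
      fun B f P' a b => hY B f P' a ⟨b.1, b.2.1, b.2.2.trans k⟩,
    fun s L y S X hX hs hL => (cov2 g' c hs hL y X hX).imp fun _ k =>
      ⟨k.1, DFunLike.congr_fun k.2⟩,
    fun _ => gam2 g' ex, fun a b X ha hb _ hX =>
      have k := fun B f P' (hB : R.fld B) (hf : In (Wdg a b 0) f) (ad : Ad (B f) P') =>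
        af2 h ex (add_mem hX (gam2 g' ex X hX)) (sub_mem hX (gam2 g' ex X hX)) (Tg.ev g2 X) (by
          simp only [mul_sub, sub_mul, mul_assoc, Tg.gg g2, g2, mul_one]; abel) (h.sub.fld _ hB)
          (P352X.Ap.in_univ' hf) (fun k hk => P352X.Ap.sep_wdg hb ha hk.2.2 hf.2.2) ad
      ⟨cm _ _ fun B f P' p q r => (k B f P' p q r).1, cm _ _ fun B f P' p q r => (k B f P' p q r).2⟩⟩
  have m : MfA R := c.elim (fun c => Br.mfa.2 (Cf.cfg_all R G A Γ _ (Br.lng.1 n) c).1) And.left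
  have u : Trf Q = Trf R := by
    funext O M W
    unfold Trf P352R.P.Ue
    rw [h.sub.U]
  refine ⟨Γ, _, n, fun O o bd => ⟨cmt (Tg.tw Γ (N R (cc O))), g, h.vac, add, der, ex, o, bd,
    fun B f hB hf => ?_, fun X hX => (mem_cmt (Tg.tw_star g2 s)).2
      (Tg.tw_gam g2 ((mem_cmt (Tg.tw_star g2 s)).1 hX)), fun a c ha hc hac X x Y y => ?_⟩⟩
  · obtain ⟨B', -, ad⟩ := fad hB
    refine ⟨_, ad f hf.1, fun Y hY v w => ?_⟩
    have k := Tg.klein g2 s (n.gam _) hY
    have q := af2 h ex k.1 k.2 (Tg.ev g2 Y) (Tg.od g2 Y) hB (P352X.Ap.in_univ' hf)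
      (fun g hg => P352X.Ap.sep_symm fun x hx y hy => hg.2.2 hy x (hf.2.2 hx)) (ad f hf.1)
    have q1 := q.1 v w
    have q2 := q.2 v w
    rw [mul_assoc _ Γ, g2, mul_one] at q2
    simp only [ContinuousLinearMap.add_apply, ContinuousLinearMap.sub_apply, inner_add_right,
      inner_sub_right] at q1 q2
    show ⟪ι _, Y (ι v)⟫_ℂ = ⟪ι w, Y (ι _)⟫_ℂ
    linear_combination (1 / 2 : ℂ) * q1 + (1 / 2 : ℂ) * q2
  · rw [u] at x y
    have x' := Tg.tw_cm g2 (Tg.tr n (fun _ p _ q => P352X.Ap.wdg_opp hc ha p q) x)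
    have x1 := (Tw.td n m ha hc hac _ x'.1).1
    have x2 := (Tw.td n m ha hc hac _ x'.2).2
    have m : X ∈ N R (Wdg c a 0) := Tg.half g2 (Tg.half g2 (by
      convert add_mem x1 x2 using 1
      simp only [mul_add, add_mul, mul_sub, sub_mul, mul_assoc, Tg.gg g2, g2, mul_one]
      abel))
    have y' := Tg.tr n (fun _ p _ q => P352X.Ap.wdg_opp ha hc p q) y
    exact ⟨y' _ ⟨X, m, .inl rfl⟩, y' _ ⟨X, m, .inr rfl⟩⟩

end Vale.Agent.P352R.Gz
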