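import Vale.Agent.P352R.Pub3

namespace Vale.Agent.P352R.G

open P352.GF P

/-- **Analytic vacuum.** The vacuum is an analytic vector for the hermitian parts of the smeared
fields. -/
def Ana {D : Type*} [NormedAddCommGroup D] [InnerProductSpace ℂ D] (Q : Theory D) : Prop :=
  ∀ B B' f, Q.fld B → IsAdj B B' → In Set.univ f → ∃ C : ℝ, ∀ n : ℕ,
    ‖(fun w => B f w + B' (bar f) w)^[n] Q.vac‖ ≤ C ^ (n + 1) * n.factorial

end Vale.Agent.P352R.G
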