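import Vale.Agent.P352R.Gz.Df
import Vale.Agent.P352R.Gz.Net
import Vale.Agent.P352R.Bz.WitR
import Vale.Agent.P352R.H72.Wit
import Vale.Agent.P352R.Tg.Gen
import Vale.Agent.P352R.Tg.Wit

/-!
# P352R, block Gz: assembly (helper72)
-/

set_option autoImplicit false
set_option linter.all false

namespace Vale.Agent.P352R.GI

open P352.GF P G

theorem thm (D : Type*) [NormedAddCommGroup D] [InnerProductSpace ℂ D] : Thm D :=
  ⟨fun Q G T A Γ O M ⟨a, b, c, n, f, g⟩ =>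
    have e := P352R.Lg.net n (c.imp_right And.right)
    have c : MfA Q ∧ FSL Q := c.elim (fun c =>
      (P352R.Cf.cfg_all Q G A Γ _ (P352R.Br.lng.1 e) c).imp_left P352R.Br.mfa.2) id
    have ⟨h, T, a, b, D, Q, G, e, L, c, d, x, y, z, k⟩ :=
      P352R.Br.finalG Q G T a A b c.1 c.2 Γ _ e f g
    ⟨h, T, a, b, D, Q, G, e, L, c, P352R.Lg.aft n.toGr d, x, y, z, k⟩,
    fun _ _ _ _ _ _ h n b => ⟨P352R.Lg.lg1 h n b, fun _ => P352R.Lg.trf_sub h⟩,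
    fun _ => P352R.Le.ebd, fun _ _ => P352R.H72.form, fun _ _ _ _ ⟨g, v, a, d⟩ s r c l =>
      have ⟨Γ, N, h, k⟩ := l.elim (fun l => P352R.Tg.sub g r s v a d c l.2 l.1)
        fun l => P352R.Gz.sub ⟨g, r, s, v, l.1, l.2⟩ a d c
      ⟨Γ, N, h, fun O n b => (k O n b).imp fun _ m => ⟨m, fun _ s p c u e => ⟨s, p, c, m, u, e⟩⟩⟩,
    fun _ _ g v c m f => (P352R.Tg.gen g c m f).imp fun _ h => ⟨g, v, h.1, h.2⟩⟩

section

open P352 P352R.Le P352R.L22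
open P352L.StA (hull sp_of sp_ind)
open UniformSpace (Completion)

/-- **the witness with a proper linearly bounded subtheory** -/
theorem wit2 : ∃ (E : Type) (_ : NormedAddCommGroup E) (_ : InnerProductSpace ℂ E)
    (Q R : Theory E) (G : E → E) (T : Ix → Ix → Fld E) (A : (V → V) → E → E)
    (Γ : Completion E →L[ℂ] Completion E) (O : Set V) (M : VonNeumannAlgebra (Completion E))
    (φ : Fld E), Stress0 Q T ∧ PCh Q T A ∧ Lg1 Q G A Γ O M ∧ UVac Q ∧ EBd Q ∧ CntF Q ∧ MfA Q ∧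
      FSL Q ∧ IsEnl R Q ∧ Gr R G ∧ CntF R ∧ LEB R ∧
      (Ana R ∧ ∀ B, R.fld B ↔ ∃ c : ℂ, ∀ f v, B f v = c • φ f v) ∧
      (∀ S : Submodule ℂ E, Q.vac ∈ S →
        (∀ B f v, Q.fld B → IsTest f → v ∈ S → B f v ∈ S) → S = ⊤) ∧
      Q.IsScalar φ 1 ∧ (∃ f, IsTest f ∧ φ f Q.vac ≠ 0) ∧ ¬FiniteDimensional ℂ (Completion E) ∧
      ∃ f, IsTest f ∧ tr T f Q.vac ≠ 0 := by
  obtain ⟨A, N, ⟨a, b, -, f, n, u, -⟩, -, m, ⟨-, g, d⟩, -, t⟩ := fr.topQ rec_fr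
  have r := (Br.lnm.1 n).toRep
  have e := En.W22.enb (A := A) ⟨r.mul, r.add, r.der⟩
  have r' : H15.Rep (hull fr.t0) A := ⟨r.mul, r.add, r.der⟩
  have g' : Gr (hull fr.t0) id := Br.gr.2 (Gl2.gr r' (fun _ b => b) (zero_mem _))
  have l : LEB (hull fr.t0) := fun B f hB hf => by
    obtain ⟨C, c, e⟩ := L22.bk r' (e.lin B f hB hf)
    refine ⟨C, fun v => (e v).trans (mul_le_mul_of_nonneg_left ?_ c)⟩
    rw [pow_one]
    exact norm_sub_le _ _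
  obtain ⟨Γ, -, -, k⟩ := Tg.sub g g' e.sub rfl e.add d (.inl e.cnt) l (H72.ebd r)
  obtain ⟨M, k⟩ := k _ (Metric.ball_mem_nhds 0 one_pos) Metric.isBounded_ball
  exact ⟨D, _, _, fr.tq, _, id, Tm, A, Γ, _, M, Ph, a, b, k, u, H72.ebd r, cntF_tq, m, f, e.sub, g',
    e.cnt, l, ⟨(Bz.anvR fr e).ana, fun B => Submodule.mem_span_singleton.trans (exists_congr fun c =>
      ⟨fun h _ _ => h ▸ rfl, fun h => funext fun f => funext fun v => (h f v).symm⟩)⟩, fun S a b => top_unique fun w _ =>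
      fr.gen S a (fun B f v k => b B f v (sp_of k)) w, ⟨sp_of fr.pφ, fr.scalar.2⟩, fr.nzp, t⟩

end

theorem wit : ∀ b, ∃ (D : Type) (_ : NormedAddCommGroup D) (_ : InnerProductSpace ℂ D), Wit D b
  | true =>
    have ⟨D, i, j, Q, G, T, A, Γ, N, l, y, a, b, c, d, e, f, g, h, ⟨φ, p, q⟩, k⟩ := P352R.Tg.wit
    ⟨D, i, j, Q, Q, G, T, A, Γ, Metric.ball 0 1, N _, φ, ⟨a, b, .inl h,
      P352R.Lg.lg1 e (Metric.ball_mem_nhds _ one_pos) Metric.isBounded_ball, f, g⟩, h, c, d,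
      ⟨rfl, rfl, fun _ => id, fun _ => id⟩, e.toGr, h, fun B f p q => l B f p q.1, rfl, y, p, q, k⟩
  | false =>
    have ⟨D, i, j, Q, R, G, T, A, Γ, O, M, φ, a, b, c, d, e, f, k⟩ := wit2
    ⟨D, i, j, Q, R, G, T, A, Γ, O, M, φ, ⟨a, b, .inl f, c, d, e⟩, f, k⟩

end Vale.Agent.P352R.GI
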